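import Mathlib

/-! P054: distinct distances of sets covered by few curves. -/

namespace Vale.Agent.P054

open Finset

/-- the points of `R^d` -/
abbrev Pt (d : ℕ) : Type := EuclideanSpace ℝ (Fin d)

/-- the set of distances between distinct points of `P` -/
def dists {d : ℕ} (P : Finset (Pt d)) : Set ℝ :=
  {r | ∃ p ∈ P, ∃ q ∈ P, p ≠ q ∧ r = dist p q}

/-- the set of distances from `x` to the other points of `P` -/
def pinned {d : ℕ} (P : Finset (Pt d)) (x : Pt d) : Set ℝ :=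
  {r | ∃ q ∈ P, x ≠ q ∧ r = dist x q}

/-- every sphere of positive radius centred at a point of `A` contains at most `m` points of `A` -/
def Thin {d : ℕ} (m : ℕ) (A : Set (Pt d)) : Prop :=
  ∀ x ∈ A, ∀ r : ℝ, 0 < r → (A ∩ {y | dist x y = r}).encard ≤ m

/-- straight lines -/
def IsLine {d : ℕ} (A : Set (Pt d)) : Prop :=
  ∃ p v : Pt d, v ≠ 0 ∧ A = {y | ∃ t : ℝ, y = p + t • v}

/-- circles: the points of a two-dimensional affine subspace at distance `ρ > 0` from a point of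
the subspace -/
def IsCircle {d : ℕ} (A : Set (Pt d)) : Prop :=
  ∃ (s : AffineSubspace ℝ (Pt d)) (c : Pt d) (ρ : ℝ), Module.finrank ℝ s.direction = 2 ∧ c ∈ s ∧
    0 < ρ ∧ A = {y | y ∈ s ∧ dist y c = ρ}

theorem two_of {X : Type*} (A : Set X) (h : ∀ a ∈ A, ∀ b ∈ A, a ≠ b → ∀ c ∈ A, c = a ∨ c = b) :
    A.encard ≤ (2 : ℕ) := by
  by_cases h1 : ∃ a ∈ A, ∃ b ∈ A, a ≠ b
  · obtain ⟨a, ha, b, hb, hab⟩ := h1
    have : A ⊆ {a, b} := fun c hc => by
      rcases h a ha b hb hab c hc with rfl | rfl <;> simp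
    refine (Set.encard_le_encard this).trans ?_
    exact (Set.encard_insert_le _ _).trans (by simp [one_add_one_eq_two])
  · push Not at h1
    have : A.encard ≤ 1 := Set.encard_le_one_iff.2 fun a b ha hb => h1 a ha b hb
    exact this.trans (by norm_num)

theorem thin_line {d : ℕ} {A : Set (Pt d)} (h : IsLine A) : Thin 2 A := by
  obtain ⟨p, v, hv, rfl⟩ := h
  rintro x ⟨t, rfl⟩ r hr
  apply two_of
  rintro a ⟨⟨ta, rfl⟩, ha⟩ b ⟨⟨tb, rfl⟩, hb⟩ hab c ⟨⟨tc, rfl⟩, hc⟩
  have key : ∀ s : ℝ, dist (p + t • v) (p + s • v) = |t - s| * ‖v‖ := by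
    intro s
    rw [dist_add_left, dist_eq_norm, ← sub_smul, norm_smul, Real.norm_eq_abs]
  have hv' : 0 < ‖v‖ := norm_pos_iff.2 hv
  have ha' : |t - ta| * ‖v‖ = r := by rw [← key]; exact ha
  have hb' : |t - tb| * ‖v‖ = r := by rw [← key]; exact hb
  have hc' : |t - tc| * ‖v‖ = r := by rw [← key]; exact hc
  have e1 : |t - ta| = |t - tb| := mul_right_cancel₀ hv'.ne' (ha'.trans hb'.symm)
  have e2 : |t - tc| = |t - ta| := mul_right_cancel₀ hv'.ne' (hc'.trans ha'.symm)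
  rcases abs_eq_abs.1 e2 with h | h
  · left
    have : tc = ta := by linarith
    rw [this]
  · rcases abs_eq_abs.1 e1 with h' | h'
    · exfalso
      apply hab
      have : ta = tb := by linarith
      rw [this]
    · right
      have : tc = tb := by linarith
      rw [this]

theorem thin_circle {d : ℕ} {A : Set (Pt d)} (h : IsCircle A) : Thin 2 A := by
  obtain ⟨s, c, ρ, hs, hc, hρ, rfl⟩ := h
  rintro x ⟨hxs, hxc⟩ r hr
  apply two_of
  rintro a ⟨⟨ha1, ha2⟩, ha3⟩ b ⟨⟨hb1, hb2⟩, hb3⟩ hab y ⟨⟨hy1, hy2⟩, hy3⟩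
  have hne : (⟨c, ρ⟩ : EuclideanGeometry.Sphere (Pt d)) ≠ ⟨x, r⟩ := by
    intro h
    have : c = x := congrArg EuclideanGeometry.Sphere.center h
    subst this
    rw [dist_self] at hxc
    exact hρ.ne hxc
  have hfd : FiniteDimensional ℝ s.direction := inferInstance
  have ha3' : dist a x = r := by rw [dist_comm]; exact ha3
  have hb3' : dist b x = r := by rw [dist_comm]; exact hb3
  have hy3' : dist y x = r := by rw [dist_comm]; exact hy3
  exact EuclideanGeometry.eq_of_mem_sphere_of_mem_sphere_of_mem_of_finrank_eq_two hs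
    (s₁ := ⟨c, ρ⟩) (s₂ := ⟨x, r⟩) hc hxs ha1 hb1 hy1 hne hab
    (EuclideanGeometry.mem_sphere.2 ha2) (EuclideanGeometry.mem_sphere.2 hb2)
    (EuclideanGeometry.mem_sphere.2 hy2)
    (EuclideanGeometry.mem_sphere.2 ha3') (EuclideanGeometry.mem_sphere.2 hb3')
    (EuclideanGeometry.mem_sphere.2 hy3')

theorem pinned_finite {d : ℕ} (P : Finset (Pt d)) (x : Pt d) : (pinned P x).Finite := by
  refine ((P.finite_toSet).image (fun q => dist x q)).subset ?_
  rintro r ⟨q, hq, -, rfl⟩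
  exact ⟨q, hq, rfl⟩

theorem dists_finite {d : ℕ} (P : Finset (Pt d)) : (dists P).Finite := by
  refine (((P ×ˢ P).finite_toSet).image (fun q => dist q.1 q.2)).subset ?_
  rintro r ⟨p, hp, q, hq, -, rfl⟩
  exact ⟨(p, q), by simp [hp, hq], rfl⟩

theorem cover_bound {d : ℕ} (P : Finset (Pt d)) (hP : P.Nonempty) (k m : ℕ)
    (A : Fin k → Set (Pt d)) (hA : ∀ i, Thin m (A i)) (hcov : ∀ p ∈ P, ∃ i, p ∈ A i) :
    ∃ x ∈ P, P.card ≤ k * (1 + m * (pinned P x).ncard) := by
  classical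
  have hk : 0 < k := by
    obtain ⟨p, hp⟩ := hP
    obtain ⟨i, _⟩ := hcov p hp
    exact i.pos
  have hsum : P.card ≤ ∑ i : Fin k, (P.filter (fun p => p ∈ A i)).card := by
    have : P ⊆ Finset.univ.biUnion (fun i : Fin k => P.filter (fun p => p ∈ A i)) := by
      intro p hp
      obtain ⟨i, hi⟩ := hcov p hp
      exact Finset.mem_biUnion.2 ⟨i, Finset.mem_univ _, Finset.mem_filter.2 ⟨hp, hi⟩⟩
    exact (Finset.card_le_card this).trans Finset.card_biUnion_le
  obtain ⟨i, hi⟩ : ∃ i : Fin k, P.card ≤ k * (P.filter (fun p => p ∈ A i)).card := by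
    by_contra hcon
    push Not at hcon
    have h1 : ∑ i : Fin k, k * (P.filter (fun p => p ∈ A i)).card < ∑ _i : Fin k, P.card := by
      have : Nonempty (Fin k) := ⟨⟨0, hk⟩⟩
      exact Finset.sum_lt_sum_of_nonempty Finset.univ_nonempty (fun i _ => hcon i)
    rw [← Finset.mul_sum, Finset.sum_const, Finset.card_univ, Fintype.card_fin, smul_eq_mul] at h1
    exact absurd (Nat.lt_of_mul_lt_mul_left h1) (not_lt.2 hsum)
  set F := P.filter (fun p => p ∈ A i) with hF
  have hFne : F.Nonempty := by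
    rw [Finset.nonempty_iff_ne_empty]
    intro h0
    rw [h0, Finset.card_empty, mul_zero] at hi
    have := Finset.card_pos.2 hP
    omega
  obtain ⟨x, hx⟩ := hFne
  have hxP : x ∈ P := (Finset.mem_filter.1 hx).1
  have hxA : x ∈ A i := (Finset.mem_filter.1 hx).2
  refine ⟨x, hxP, hi.trans (Nat.mul_le_mul_left k ?_)⟩
  have h2 : (F.erase x).card ≤ m * ((F.erase x).image (fun y => dist x y)).card := by
    refine Finset.card_le_mul_card_image _ m fun r hr => ?_
    obtain ⟨y, hy, hyr⟩ := Finset.mem_image.1 hr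
    have hyx : y ≠ x := (Finset.mem_erase.1 hy).1
    have hr0 : 0 < r := by
      rw [← hyr]
      exact dist_pos.2 hyx.symm
    have h3 : (((F.erase x).filter (fun y => dist x y = r) : Finset (Pt d)) : Set (Pt d)) ⊆
        A i ∩ {y | dist x y = r} := by
      intro z hz
      rw [Finset.mem_coe, Finset.mem_filter, Finset.mem_erase] at hz
      exact ⟨(Finset.mem_filter.1 hz.1.2).2, hz.2⟩
    have h4 := (Set.encard_le_encard h3).trans (hA i x hxA r hr0)
    rw [Set.encard_coe_eq_coe_finsetCard] at h4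
    exact_mod_cast h4
  have h5 : ((F.erase x).image (fun y => dist x y)).card ≤ (pinned P x).ncard := by
    rw [← Set.ncard_coe_finset]
    refine Set.ncard_le_ncard ?_ (pinned_finite P x)
    intro r hr
    rw [Finset.mem_coe, Finset.mem_image] at hr
    obtain ⟨y, hy, rfl⟩ := hr
    rw [Finset.mem_erase] at hy
    exact ⟨y, (Finset.mem_filter.1 hy.2).1, hy.1.symm, rfl⟩
  have h6 : (F.erase x).card + 1 = F.card := Finset.card_erase_add_one hx
  have h7 := Nat.mul_le_mul_left m h5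
  omega

theorem q1_bound {d : ℕ} (P : Finset (Pt d)) (hP : 2 ≤ P.card) (k m : ℕ)
    (A : Fin k → Set (Pt d)) (hA : ∀ i, Thin m (A i)) (hcov : ∀ p ∈ P, ∃ i, p ∈ A i) (K : ℝ)
    (hK : (k : ℝ) ≤ K * (P.card : ℝ) ^ (1 - 2 / (d : ℝ))) :
    ∃ x ∈ P, (P.card : ℝ) ^ (2 / (d : ℝ)) ≤ K * (1 + m) * ((pinned P x).ncard : ℝ) := by
  obtain ⟨x, hx, h⟩ := cover_bound P (Finset.card_pos.1 (by omega)) k m A hA hcov
  refine ⟨x, hx, ?_⟩
  have hn : (0 : ℝ) < P.card := by exact_mod_cast (show 0 < P.card by omega)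
  have hD : 1 ≤ (pinned P x).ncard := by
    obtain ⟨y, hy, hyx⟩ := Finset.exists_mem_ne (by omega : 1 < P.card) x
    exact (Set.ncard_pos (pinned_finite P x)).2 ⟨_, y, hy, hyx.symm, rfl⟩
  have hDR : (1 : ℝ) ≤ (pinned P x).ncard := by exact_mod_cast hD
  have h' : (P.card : ℝ) ≤ k * (1 + m * ((pinned P x).ncard : ℝ)) := by exact_mod_cast h
  have e1 : (P.card : ℝ) = (P.card : ℝ) ^ (2 / (d : ℝ)) * (P.card : ℝ) ^ (1 - 2 / (d : ℝ)) := by
    rw [← Real.rpow_add hn]
    simp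
  have hpow : 0 < (P.card : ℝ) ^ (1 - 2 / (d : ℝ)) := Real.rpow_pos_of_pos hn _
  have hm : (1 : ℝ) + m * ((pinned P x).ncard : ℝ) ≤ (1 + m) * ((pinned P x).ncard : ℝ) := by
    nlinarith
  have hpos : (0 : ℝ) ≤ 1 + m * ((pinned P x).ncard : ℝ) := by positivity
  have h2 : (P.card : ℝ) ≤ (K * (P.card : ℝ) ^ (1 - 2 / (d : ℝ))) *
      ((1 + m) * ((pinned P x).ncard : ℝ)) := by
    refine h'.trans ?_
    refine mul_le_mul hK hm hpos ?_
    exact (Nat.cast_nonneg k).trans hK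
  have h3 : (P.card : ℝ) ^ (2 / (d : ℝ)) * (P.card : ℝ) ^ (1 - 2 / (d : ℝ)) ≤
      (K * (1 + m) * ((pinned P x).ncard : ℝ)) * (P.card : ℝ) ^ (1 - 2 / (d : ℝ)) := by
    refine (e1.symm.le.trans ?_)
    have := h'.trans (mul_le_mul hK hm hpos ((Nat.cast_nonneg k).trans hK))
    refine this.trans (le_of_eq ?_)
    ring
  exact le_of_mul_le_mul_right h3 hpow

theorem pinned_sub {d : ℕ} (P : Finset (Pt d)) {x : Pt d} (hx : x ∈ P) :
    (pinned P x).ncard ≤ (dists P).ncard := by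
  refine Set.ncard_le_ncard ?_ (dists_finite P)
  rintro r ⟨q, hq, hne, rfl⟩
  exact ⟨x, hx, q, hq, hne, rfl⟩

end Vale.Agent.P054
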